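import Vale.Agent.P269.H332.Genus0
import Vale.Agent.P269.H457.UniqueCI
import Vale.Agent.P269.H707.Values

/-!
# The explicit case: `K_X = k h` with `k ≥ D - 2`

`ciTarget D ds` is the cohomological data of a smooth complete intersection `X` of dimension `D`
and multidegree `ds` in `P^N`, `N = D + ds.length`; `K_X = k h` with `k = ∑ ds - N - 1`, and the
condition `2 * D + ds.length ≤ ds.sum + 1` says `k ≥ D - 2`.

There is no hypothesis on the correlators: if `D ≥ 3` and `k ≥ D - 2` then there is exactly one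
system of numbers satisfying the axioms `IsGW` of the descendant Gromov-Witten correlators of `X`
(given the values `N g` of the empty degree zero correlators `⟨⟩_{g,0}`, `g ≥ 2`, which are zero
unless `D = 3`), and its total descendant potential `Z` satisfies `L_k Z = 0` for all `k ≥ -1`
(`Vir X K` is `L_k` with `k = K - 1`).
-/

set_option autoImplicit false

open Vale.Agent.P269.H207 Vale.Agent.P269.H707

theorem Vale.Agent.Results.P269.GeneralTypeExplicit.result
    (D : ℕ) (ds : List ℕ) (hD : 3 ≤ D) (hD2 : 2 ≤ D) (hds : ∀ d ∈ ds, 1 ≤ d)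
    (hK : 2 * D + ds.length ≤ ds.sum + 1) (N : ℕ → ℂ) (hN : D ≠ 3 → ∀ g, N g = 0) :
    ∃ GW : ℕ → ℕ → List (ciTarget D ds hD2 hds).V → ℂ,
      IsGW (ciTarget D ds hD2 hds) GW ∧
      (∀ g, 2 ≤ g → GW g 0 [] = N g) ∧
      (∀ GW', IsGW (ciTarget D ds hD2 hds) GW' → (∀ g, 2 ≤ g → GW' g 0 [] = N g) →
        GW' = GW) ∧
      (∀ g d : ℕ, d ≠ 0 → GW g d = 0) ∧
      ∃ Z : List (ciTarget D ds hD2 hds).V → Nov,
        IsExp (ciTarget D ds hD2 hds) (potential (ciTarget D ds hD2 hds) GW) Z ∧ Z [] = 1 ∧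
        (∀ Z', IsExp (ciTarget D ds hD2 hds) (potential (ciTarget D ds hD2 hds) GW) Z' →
          Z' [] = 1 → Z' = Z) ∧
        ∀ K : ℕ, Vir (ciTarget D ds hD2 hds) K Z = 0 := by
  have hsum : (ds.map (fun d : ℕ => (d : ℤ))).sum = ((ds.sum : ℕ) : ℤ) := by
    rw [Nat.cast_list_sum]
  have hc : ciC1 D ds ≤ 2 - D := by
    rw [ciC1, hsum]
    omega
  refine ⟨ciGW D ds hD hds N, isGW_ciGW D ds hD hds N, ciGW_const D ds hD hds N hN, ?_,
    fun g d hd => ciGW_pos D ds hD hds N g d hd, ?_⟩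
  · intro GW' h' hN'
    refine Vale.Agent.P269.H457.gw_unique_ci hD hc h' (isGW_ciGW D ds hD hds N) ?_
    intro _ g hg
    rw [hN' g hg, ciGW_const D ds hD hds N hN g hg]
  · obtain ⟨Z, hZ, hZ1⟩ := exists_exp (X := ciTarget D ds hD2 hds)
      (potential (ciTarget D ds hD2 hds) (ciGW D ds hD hds N))
    refine ⟨Z, hZ, hZ1, fun Z' h1 h2 => exp_unique h1 hZ (by rw [h2, hZ1]), fun K => ?_⟩
    exact Vale.Agent.P269.H332.Vir_nef_full (isGW_ciGW D ds hD hds N) hD
      (by show ciC1 D ds ≤ 0; omega) K hZ
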