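import Vale.Agent.P269.H207.Reduce
import Vale.Agent.P269.H707.CITarget

/-!
# Virasoro constraints for complete intersections

`ciTarget D ds` is the cohomological data of a smooth complete intersection `X` of dimension `D`
and multidegree `ds` in projective space; `ciC1 D ds = D + ds.length + 1 - ∑ ds` is the degree of
`c_1(X)` on a line.  `Vir X K` is the operator `L_k` with `k = K - 1`.

For every system of descendant Gromov-Witten correlators of `X` (structure `IsGW`) with total
descendant potential `Z`, write `L_k Z = z_k Z`.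

* If `3 ≤ D` and `K_X` is nef, i.e. `D + ds.length + 1 ≤ ∑ ds`, then `L_k Z = 0` for all `k ≥ -1`,
  in all genera and degrees, with arbitrary insertions.
* For every complete intersection of dimension `D ≥ 2`, the genus zero part of `z_k` vanishes, the
  genus `g`, degree `d` part of all `z_k` vanishes when `(1 - g)(D - 3) + c_1 d ≤ 0`, and in general
  all constraints in genus `g` and degree `d` follow from any single one of them with
  `k ≥ (1 - g)(D - 3) + c_1 d`.
-/

set_option autoImplicit false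

open Vale.Agent.P269.H207 Vale.Agent.P269.H707

theorem Vale.Agent.Results.P269.NefCanonical.result
    (D : ℕ) (ds : List ℕ) (hD : 2 ≤ D) (hds : ∀ d ∈ ds, 1 ≤ d)
    (GW : ℕ → ℕ → List (ciTarget D ds hD hds).V → ℂ)
    (hGW : IsGW (ciTarget D ds hD hds) GW) :
    ∃ Z : List (ciTarget D ds hD hds).V → Nov,
      (IsExp (ciTarget D ds hD hds) (potential (ciTarget D ds hD hds) GW) Z ∧ Z [] = 1 ∧
        ∀ Z', IsExp (ciTarget D ds hD hds) (potential (ciTarget D ds hD hds) GW) Z' →
          Z' [] = 1 → Z' = Z) ∧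
      (3 ≤ D → D + ds.length + 1 ≤ ds.sum → ∀ K : ℕ, Vir (ciTarget D ds hD hds) K Z = 0) ∧
      ∃ z : ℕ → List (ciTarget D ds hD hds).V → Nov,
        (∀ K, Vir (ciTarget D ds hD hds) K Z = smul2 (ciTarget D ds hD hds).par (z K) Z) ∧
        (∀ K z', Vir (ciTarget D ds hD hds) K Z = smul2 (ciTarget D ds hD hds).par z' Z →
          z' = z K) ∧
        (∀ (d K : ℕ) (L : List (ciTarget D ds hD hds).V),
          (PowerSeries.coeff d (z K L)).coeff (-1) = 0) ∧
        (∀ g d : ℕ, (1 - (g : ℤ)) * ((D : ℤ) - 3) + ciC1 D ds * d ≤ 0 →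
          ∀ (K : ℕ) (L : List (ciTarget D ds hD hds).V),
            (PowerSeries.coeff d (z K L)).coeff ((g : ℤ) - 1) = 0) ∧
        (∀ g d K₀ : ℕ, (1 - (g : ℤ)) * ((D : ℤ) - 3) + ciC1 D ds * d + 1 ≤ K₀ →
          (∀ L : List (ciTarget D ds hD hds).V,
            (PowerSeries.coeff d (z K₀ L)).coeff ((g : ℤ) - 1) = 0) →
          ∀ (K : ℕ) (L : List (ciTarget D ds hD hds).V),
            (PowerSeries.coeff d (z K L)).coeff ((g : ℤ) - 1) = 0) := by
  obtain ⟨Z, hZ, hZ1⟩ := exists_exp (potential (ciTarget D ds hD hds) GW)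
  refine ⟨Z, ⟨hZ, hZ1, fun Z' h1 h2 => exp_unique h1 hZ (by rw [h2, hZ1])⟩, ?_,
    fun K => zN (ciTarget D ds hD hds) K (potential (ciTarget D ds hD hds) GW), ?_, ?_, ?_, ?_, ?_⟩
  · intro h3 hc K
    refine Vale.Agent.P269.H332.Vir_nef_full hGW h3 ?_ K hZ
    show ciC1 D ds ≤ 0
    have h1 : (ds.map (fun d : ℕ => (d : ℤ))).sum = ((ds.sum : ℕ) : ℤ) := by
      rw [Nat.cast_list_sum]
    rw [ciC1, h1]
    omega
  · intro K
    exact Vir_eq K (potential_par hGW) hZ
  · intro K z' h1
    rw [Vir_eq K (potential_par hGW) hZ] at h1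
    exact (smul2_cancel (by rw [hZ1]; exact isUnit_one) h1).symm
  · intro d K L
    exact vir_coeff_zero hGW K (Vale.Agent.P269.H332.genus0 hGW K) d L
  · intro g d hs K L
    exact vir_coeff hGW K g d hs L
  · intro g d K₀ hs hK K L
    exact vir_sector hGW g d K₀ hs hK K L
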